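import Vale.Agent.P284.H894.V.Spec
import Vale.Agent.P301.H949.Loc

/-! # P284, theorem V, block V17 (helper465): infinite image by the maximum principle. -/

open scoped Manifold ContDiff Topology Pointwise ComplexConjugate
open Filter Set Metric

noncomputable section

namespace Vale.Agent.P284.H465.V17

open Vale.Agent.P272.K Vale.Agent.P284.H894 Vale.Agent.P284.H894.G Vale.Agent.P284.H894.V

/-- local maximum principle -/
theorem eq_of_max {n : ℕ} {g : Cm n → ℝ} {U : Set (Cm n)} (hU : IsOpen U) (hc : Convex ℝ U)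
    (hg : ∀ z ∈ U, ContDiffAt ℝ 2 g z) (h0 : ∀ z ∈ U, cHess g z = 0) {z₀ : Cm n} (hz₀ : z₀ ∈ U)
    (hmax : ∀ z ∈ U, g z ≤ g z₀) : ∀ z ∈ U, g z = g z₀ := by
  obtain ⟨F, hF, hFr⟩ := Vale.Agent.P301.H949.exists_re hU hc hg h0
  have hM : IsMaxOn (norm ∘ fun z => Complex.exp (F z)) U z₀ := by
    intro z hz
    show ‖Complex.exp (F z)‖ ≤ ‖Complex.exp (F z₀)‖
    rw [Complex.norm_exp, Complex.norm_exp, hFr z hz, hFr z₀ hz₀]
    exact Real.exp_le_exp.2 (hmax z hz)
  have h1 := Complex.eqOn_of_isPreconnected_of_isMaxOn_norm hc.isPreconnected hU hF.cexp hz₀ hM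
  intro z hz
  have h2 := congrArg norm (h1 hz)
  simp only [Function.const_apply] at h2
  rw [Complex.norm_exp, Complex.norm_exp, hFr z hz, hFr z₀ hz₀] at h2
  exact Real.exp_injective h2

section
variable {n : ℕ} {X : Type} [TopologicalSpace X] [ChartedSpace (Cm n) X]
  {E : Type} [TopologicalSpace E] {p : E → X} {w : Chart n X → Cm n → Matrix (Fin n) (Fin n) ℂ}
  {u : E → ℝ} {B : ℝ}

lemma at_chart (x : X) : At (chartAt (Cm n) x) x := ⟨chart_mem_atlas _ x, mem_chart_source _ x⟩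

lemma map_chart (hp : IsCoveringMap p) {y : E} {e : Chart n X} (he : At e (p y)) :
    Filter.map (fun y' => e (p y')) (𝓝 y) = 𝓝 (e (p y)) := by
  have h1 : Filter.map p (𝓝 y) = 𝓝 (p y) := hp.isLocalHomeomorph.map_nhds_eq y
  have h2 : Filter.map e (𝓝 (p y)) = 𝓝 (e (p y)) := e.map_nhds_eq he.2
  rw [← h2, ← h1, Filter.map_map]
  rfl

lemma phb_continuous (hp : IsCoveringMap p) (hu : IsPHB p w u B) : Continuous u := by
  rw [continuous_iff_continuousAt]
  intro y
  obtain ⟨g, hg1, hg2, -⟩ := hu y _ (at_chart (n := n) (p y))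
  have hc : ContinuousAt (fun y' => chartAt (Cm n) (p y) (p y')) y := by
    unfold ContinuousAt
    exact (map_chart hp (at_chart (n := n) (p y))).le
  have h1 : ContinuousAt (fun y' => g (chartAt (Cm n) (p y) (p y'))) y :=
    ContinuousAt.comp (f := fun y' => chartAt (Cm n) (p y) (p y'))
      (hg2.self_of_nhds.1.continuousAt) hc
  exact h1.congr (by filter_upwards [hg1] with y' h using h.symm)

/-- the maximum principle on `E` -/
theorem const_of_max [ConnectedSpace E] (hp : IsCoveringMap p) (hu : IsPHB p w u B) {y₀ : E}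
    (hmax : ∀ y, u y ≤ u y₀) (y : E) : u y = u y₀ := by
  have hclosed : IsClosed {y | u y = u y₀} := isClosed_eq (phb_continuous hp hu) continuous_const
  have hopen : IsOpen {y | u y = u y₀} := by
    rw [isOpen_iff_mem_nhds]
    intro y hy
    have hy' : u y = u y₀ := hy
    obtain ⟨g, hg1, hg2, -⟩ := hu y _ (at_chart (n := n) (p y))
    have hmap := map_chart hp (at_chart (n := n) (p y))
    set e : Chart n X := chartAt (Cm n) (p y) with he
    have h1 : u y = g (e (p y)) := hg1.self_of_nhds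
    have h2 : ∀ᶠ z in 𝓝 (e (p y)), g z ≤ g (e (p y)) := by
      rw [← hmap, Filter.eventually_map]
      filter_upwards [hg1] with y' h'
      rw [← h', ← h1, hy']
      exact hmax y'
    obtain ⟨r, hr, hball⟩ := Metric.eventually_nhds_iff_ball.1 (hg2.and h2)
    have h3 := eq_of_max (g := g) (z₀ := e (p y)) isOpen_ball (convex_ball _ r)
      (fun z hz => (hball z hz).1.1.of_le
        (show ((2 : ℕ∞) : WithTop ℕ∞) ≤ ((⊤ : ℕ∞) : WithTop ℕ∞) from WithTop.coe_le_coe.2 le_top))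
      (fun z hz => (hball z hz).1.2) (mem_ball_self hr) (fun z hz => (hball z hz).2)
    have h4 : ∀ᶠ z in 𝓝 (e (p y)), g z = g (e (p y)) := by
      filter_upwards [ball_mem_nhds _ hr] with z hz using h3 z hz
    rw [← hmap, Filter.eventually_map] at h4
    filter_upwards [hg1, h4] with y' h5 h6
    show u y' = u y₀
    rw [h5, h6, ← h1, hy']
  have huniv : {y | u y = u y₀} = univ := IsClopen.eq_univ ⟨hclosed, hopen⟩ ⟨y₀, rfl⟩
  exact (huniv ▸ mem_univ y : y ∈ {y | u y = u y₀})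

variable {Γ : Type} [Group Γ] [MulAction Γ E]

lemma p_smul (h : IsGalois Γ p) (γ : Γ) (y : E) : p (γ • y) = p y :=
  ((h.orb y (γ • y)).2 ⟨γ, rfl⟩).symm

lemma phb_smul (h : IsGalois Γ p) (hu : IsPHB p w u B) (γ : Γ) :
    IsPHB p w (fun y => u (γ • y)) B := by
  intro y e he
  have he' : At e (p (γ • y)) := by rwa [p_smul h]
  obtain ⟨g, hg1, hg2, hg3⟩ := hu (γ • y) e he'
  rw [p_smul h] at hg2 hg3
  refine ⟨g, ?_, hg2, hg3⟩
  have h1 := ((h.cont γ).tendsto y).eventually hg1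
  filter_upwards [h1] with y' hy'
  rw [hy', p_smul h]

end

theorem v17Stmt : V17Stmt := by
  intro n X _ _ _ _ _ _ w _ E Γ _ _ _ _ p hG V hV v hv hne
  -- the representation
  let ρ₀ : Γ → (V →ₗ[ℝ] V) := fun γ =>
    { toFun := fun u => ⟨fun y => (u : E → ℝ) (γ⁻¹ • y), by
        obtain ⟨B, hB⟩ := (hV _).1 u.2
        exact (hV _).2 ⟨B, phb_smul hG hB γ⁻¹⟩⟩
      map_add' := fun u u' => by ext y; rfl
      map_smul' := fun c u => by ext y; rfl }
  have hρ₀ : ∀ γ u y, (ρ₀ γ u : E → ℝ) y = (u : E → ℝ) (γ⁻¹ • y) := fun _ _ _ => rfl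
  let ρ : Γ →* (V →ₗ[ℝ] V) :=
    { toFun := ρ₀
      map_one' := by
        ext u y
        rw [hρ₀]
        simp
      map_mul' := fun γ γ' => by
        ext u y
        rw [hρ₀, Module.End.mul_apply, hρ₀, hρ₀, mul_inv_rev, mul_smul] }
  have hρ : ∀ γ u y, (ρ γ u : E → ℝ) y = (u : E → ℝ) (γ⁻¹ • y) := hρ₀
  refine ⟨ρ, hρ, ?_⟩
  intro hfin
  -- the orbit of `v`
  set v' : V := ⟨v, hv⟩ with hv'
  let S : Finset (V →ₗ[ℝ] V) := hfin.toFinset
  have hS : ∀ s, s ∈ S ↔ ∃ γ, ρ γ = s := fun s => by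
    rw [Set.Finite.mem_toFinset, Set.mem_range]
  have hSne : S.Nonempty := ⟨ρ 1, (hS _).2 ⟨1, rfl⟩⟩
  let m : E → ℝ := fun y => S.sup' hSne fun s => (s v' : E → ℝ) y
  have hcont : ∀ u : V, Continuous (u : E → ℝ) := fun u => by
    obtain ⟨B, hB⟩ := (hV _).1 u.2
    exact phb_continuous hG.cov hB
  have hm : Continuous m := Continuous.finset_sup'_apply hSne fun s _ => hcont (s v')
  have hinv : ∀ (γ : Γ) (y : E), m (γ • y) = m y := by
    have hle : ∀ (γ : Γ) (y : E), m (γ • y) ≤ m y := by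
      intro γ y
      refine Finset.sup'_le hSne _ fun s hs => ?_
      obtain ⟨γ', rfl⟩ := (hS s).1 hs
      have h1 : (ρ γ' v' : E → ℝ) (γ • y) = (ρ (γ⁻¹ * γ') v' : E → ℝ) y := by
        rw [hρ, hρ, mul_inv_rev, inv_inv, mul_smul]
      rw [h1]
      exact Finset.le_sup' (fun s => (s v' : E → ℝ) y) ((hS _).2 ⟨_, rfl⟩)
    intro γ y
    refine le_antisymm (hle γ y) ?_
    have := hle γ⁻¹ (γ • y)
    rwa [inv_smul_smul] at this
  -- the function on `X`
  have hq : Topology.IsQuotientMap p := hG.cov.isLocalHomeomorph.isOpenMap.isQuotientMap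
    hG.cov.continuous hG.surj
  let M : X → ℝ := fun x => m (hG.surj x).choose
  have hM : ∀ y, M (p y) = m y := by
    intro y
    have h1 := (hG.surj (p y)).choose_spec
    obtain ⟨γ, hγ⟩ := (hG.orb y _).1 h1.symm
    show m (hG.surj (p y)).choose = m y
    rw [← hγ, hinv]
  have hMc : Continuous M := by
    rw [hq.continuous_iff]
    have : M ∘ p = m := funext hM
    rwa [this]
  obtain ⟨x₀, -, hx₀⟩ := isCompact_univ.exists_isMaxOn (Set.univ_nonempty (α := X))
    hMc.continuousOn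
  obtain ⟨y₀, rfl⟩ := hG.surj x₀
  have hmax : ∀ y, m y ≤ m y₀ := fun y => by
    have := hx₀ (mem_univ (p y))
    simp only [mem_setOf_eq, hM] at this
    exact this
  obtain ⟨s, hs, hs2⟩ := Finset.exists_mem_eq_sup' hSne fun s => (s v' : E → ℝ) y₀
  obtain ⟨γ, rfl⟩ := (hS s).1 hs
  obtain ⟨B, hB⟩ := (hV _).1 (ρ γ v').2
  have hconst := const_of_max hG.cov hB (y₀ := y₀) (fun y => by
    have h1 : (ρ γ v' : E → ℝ) y ≤ m y :=
      Finset.le_sup' (fun s => (s v' : E → ℝ) y) hs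
    have h2 : m y₀ = (ρ γ v' : E → ℝ) y₀ := hs2
    rw [← h2]
    exact h1.trans (hmax y))
  obtain ⟨y, y', hyy⟩ := hne
  apply hyy
  have h3 : ∀ y, v y = (ρ γ v' : E → ℝ) (γ • y) := fun y => by
    rw [hρ, inv_smul_smul]
  rw [h3 y, h3 y', hconst, hconst (γ • y')]

end Vale.Agent.P284.H465.V17
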