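import Vale.Agent.P284.H894.V.Spec
import Vale.Agent.P300.H673.UC
import Vale.Agent.P223.R2.H968.Lift
import Mathlib.Topology.Homotopy.Lifting

/-! # P284, theorem V, block V19 (helper465): the universal covering. -/

open scoped Manifold ContDiff Topology Pointwise
open Filter Set Metric

noncomputable section

namespace Vale.Agent.P284.H465.V19

open Vale.Agent.P272.K Vale.Agent.P284.H894 Vale.Agent.P284.H894.G Vale.Agent.P284.H894.V

/-- Følner's condition is invariant under isomorphisms -/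
theorem folner_of_equiv {A B : Type*} [Group A] [Group B] (e : A ≃* B) (h : Folner A) :
    Folner B := by
  intro S hS ε hε
  obtain ⟨F, hF, hne, hF2⟩ := h (e.symm '' S) (hS.image _) ε hε
  refine ⟨e '' F, hF.image _, hne.image _, fun s hs => ?_⟩
  have h1 := hF2 (e.symm s) (mem_image_of_mem _ hs)
  have h2 : (s • (e '' F)) \ (e '' F) = e '' ((e.symm s • F) \ F) := by
    rw [Set.image_diff e.injective]
    congr 1
    ext x
    constructor
    · rintro ⟨_, ⟨f, hf, rfl⟩, rfl⟩
      refine ⟨e.symm s * f, ⟨f, hf, rfl⟩, ?_⟩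
      simp
    · rintro ⟨_, ⟨f, hf, rfl⟩, rfl⟩
      refine ⟨e f, ⟨f, hf, rfl⟩, ?_⟩
      simp
  rw [h2, Set.ncard_image_of_injective _ e.injective, Set.ncard_image_of_injective _ e.injective]
  exact h1

/-- virtual indicability is invariant under isomorphisms -/
theorem virtIndicable_of_equiv {A B : Type*} [Group A] [Group B] (e : A ≃* B)
    (h : VirtIndicable A) : VirtIndicable B := by
  obtain ⟨H, hH, φ, hφ⟩ := h
  refine ⟨H.map e.toMonoidHom, ?_, ?_⟩
  · constructor
    have h1 : (H.map e.toMonoidHom).index = H.index :=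
      Subgroup.index_map_of_bijective (f := e.toMonoidHom) e.bijective H
    rw [h1]
    exact hH.index_ne_zero
  · let e' : H ≃* H.map e.toMonoidHom := H.equivMapOfInjective e.toMonoidHom e.injective
    exact ⟨φ.comp e'.symm.toMonoidHom, hφ.comp e'.symm.surjective⟩

theorem v19Stmt : V19Stmt := by
  intro h n X iT iT2 iC iCn iCh iM w hw Φ hΦ x hinf hfol
  obtain ⟨N, hN⟩ := Vale.Agent.P300.H673.exists_openEmbedding (Cm n) X
  obtain ⟨Y, Γ, tY, gΓ, aΓ, π, hsc, ht2, hcont, hfree, hcov, hsurj, horb⟩ :=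
    Vale.Agent.P223.X.U.main N X hN
  have hcont' : ∀ γ : Γ, Continuous fun y : Y => γ • y := hcont
  have q := Vale.Agent.P223.R2.H968.Lift.quot π hcont hfree hcov hsurj horb
  obtain ⟨y0, rfl⟩ := hsurj x
  have e : FundamentalGroup X (π y0) ≃* Γᵐᵒᵖ :=
    q.fundamentalGroupEquiv (⟨y0, rfl⟩ : π ⁻¹' {π y0})
  have e' : FundamentalGroup X (π y0) ≃* Γ := e.trans (MulEquiv.inv' Γ).symm
  have hG : IsGalois Γ (π : Y → X) := ⟨hcov, hsurj, hcont', hfree, horb⟩
  have hpc : PathConnectedSpace Y := inferInstance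
  have hΓ : Infinite Γ := e'.toEquiv.infinite_iff.1 hinf
  exact virtIndicable_of_equiv e'.symm
    (h n X w hw Φ hΦ Y Γ π hG hΓ (folner_of_equiv e' hfol))

end Vale.Agent.P284.H465.V19
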